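import Vale.Agent.P062.Zero.Get

/-!
P062: kernel check of a block of rows.
-/

namespace Vale.Agent.P062.Zero

open Vale.Agent.P062.Cert

theorem check1024 : checkRange get 1024 32 = true := by decide +kernel

theorem check1056 : checkRange get 1056 32 = true := by decide +kernel

theorem check1088 : checkRange get 1088 32 = true := by decide +kernel

theorem check1120 : checkRange get 1120 32 = true := by decide +kernel

theorem check1152 : checkRange get 1152 32 = true := by decide +kernel

theorem check1184 : checkRange get 1184 32 = true := by decide +kernel

theorem check1216 : checkRange get 1216 32 = true := by decide +kernel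

theorem check1248 : checkRange get 1248 32 = true := by decide +kernel

theorem check1280 : checkRange get 1280 32 = true := by decide +kernel

theorem check1312 : checkRange get 1312 32 = true := by decide +kernel

theorem check1344 : checkRange get 1344 32 = true := by decide +kernel

theorem check1376 : checkRange get 1376 32 = true := by decide +kernel

theorem check1408 : checkRange get 1408 32 = true := by decide +kernel

theorem check1440 : checkRange get 1440 32 = true := by decide +kernel

theorem check1472 : checkRange get 1472 32 = true := by decide +kernel

theorem check1504 : checkRange get 1504 32 = true := by decide +kernel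

theorem check1536 : checkRange get 1536 32 = true := by decide +kernel

theorem check1568 : checkRange get 1568 32 = true := by decide +kernel

theorem check1600 : checkRange get 1600 32 = true := by decide +kernel

theorem check1632 : checkRange get 1632 32 = true := by decide +kernel

theorem check1664 : checkRange get 1664 32 = true := by decide +kernel

theorem check1696 : checkRange get 1696 32 = true := by decide +kernel

theorem check1728 : checkRange get 1728 32 = true := by decide +kernel

theorem check1760 : checkRange get 1760 32 = true := by decide +kernel

theorem check1792 : checkRange get 1792 32 = true := by decide +kernel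

theorem check1824 : checkRange get 1824 32 = true := by decide +kernel

theorem check1856 : checkRange get 1856 32 = true := by decide +kernel

theorem check1888 : checkRange get 1888 32 = true := by decide +kernel

theorem check1920 : checkRange get 1920 32 = true := by decide +kernel

theorem check1952 : checkRange get 1952 32 = true := by decide +kernel

theorem check1984 : checkRange get 1984 32 = true := by decide +kernel

theorem check2016 : checkRange get 2016 32 = true := by decide +kernel

theorem blockOk1 : ∀ i, 1024 ≤ i → i < 2048 → check get i (get i) = true := by
  intro i hl hi
  rcases Nat.lt_or_ge i 1056 with h | h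
  · exact checkRange_mem check1024 i (by omega) (by omega)
  rcases Nat.lt_or_ge i 1088 with h | h
  · exact checkRange_mem check1056 i (by omega) (by omega)
  rcases Nat.lt_or_ge i 1120 with h | h
  · exact checkRange_mem check1088 i (by omega) (by omega)
  rcases Nat.lt_or_ge i 1152 with h | h
  · exact checkRange_mem check1120 i (by omega) (by omega)
  rcases Nat.lt_or_ge i 1184 with h | h
  · exact checkRange_mem check1152 i (by omega) (by omega)
  rcases Nat.lt_or_ge i 1216 with h | h
  · exact checkRange_mem check1184 i (by omega) (by omega)
  rcases Nat.lt_or_ge i 1248 with h | h
  · exact checkRange_mem check1216 i (by omega) (by omega)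
  rcases Nat.lt_or_ge i 1280 with h | h
  · exact checkRange_mem check1248 i (by omega) (by omega)
  rcases Nat.lt_or_ge i 1312 with h | h
  · exact checkRange_mem check1280 i (by omega) (by omega)
  rcases Nat.lt_or_ge i 1344 with h | h
  · exact checkRange_mem check1312 i (by omega) (by omega)
  rcases Nat.lt_or_ge i 1376 with h | h
  · exact checkRange_mem check1344 i (by omega) (by omega)
  rcases Nat.lt_or_ge i 1408 with h | h
  · exact checkRange_mem check1376 i (by omega) (by omega)
  rcases Nat.lt_or_ge i 1440 with h | h
  · exact checkRange_mem check1408 i (by omega) (by omega)
  rcases Nat.lt_or_ge i 1472 with h | h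
  · exact checkRange_mem check1440 i (by omega) (by omega)
  rcases Nat.lt_or_ge i 1504 with h | h
  · exact checkRange_mem check1472 i (by omega) (by omega)
  rcases Nat.lt_or_ge i 1536 with h | h
  · exact checkRange_mem check1504 i (by omega) (by omega)
  rcases Nat.lt_or_ge i 1568 with h | h
  · exact checkRange_mem check1536 i (by omega) (by omega)
  rcases Nat.lt_or_ge i 1600 with h | h
  · exact checkRange_mem check1568 i (by omega) (by omega)
  rcases Nat.lt_or_ge i 1632 with h | h
  · exact checkRange_mem check1600 i (by omega) (by omega)
  rcases Nat.lt_or_ge i 1664 with h | h
  · exact checkRange_mem check1632 i (by omega) (by omega)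
  rcases Nat.lt_or_ge i 1696 with h | h
  · exact checkRange_mem check1664 i (by omega) (by omega)
  rcases Nat.lt_or_ge i 1728 with h | h
  · exact checkRange_mem check1696 i (by omega) (by omega)
  rcases Nat.lt_or_ge i 1760 with h | h
  · exact checkRange_mem check1728 i (by omega) (by omega)
  rcases Nat.lt_or_ge i 1792 with h | h
  · exact checkRange_mem check1760 i (by omega) (by omega)
  rcases Nat.lt_or_ge i 1824 with h | h
  · exact checkRange_mem check1792 i (by omega) (by omega)
  rcases Nat.lt_or_ge i 1856 with h | h
  · exact checkRange_mem check1824 i (by omega) (by omega)
  rcases Nat.lt_or_ge i 1888 with h | h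
  · exact checkRange_mem check1856 i (by omega) (by omega)
  rcases Nat.lt_or_ge i 1920 with h | h
  · exact checkRange_mem check1888 i (by omega) (by omega)
  rcases Nat.lt_or_ge i 1952 with h | h
  · exact checkRange_mem check1920 i (by omega) (by omega)
  rcases Nat.lt_or_ge i 1984 with h | h
  · exact checkRange_mem check1952 i (by omega) (by omega)
  rcases Nat.lt_or_ge i 2016 with h | h
  · exact checkRange_mem check1984 i (by omega) (by omega)
  exact checkRange_mem check2016 i (by omega) (by omega)

end Vale.Agent.P062.Zero
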