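import Vale.Agent.P062.Zero.Get

/-!
P062: kernel check of a block of rows.
-/

namespace Vale.Agent.P062.Zero

open Vale.Agent.P062.Cert

theorem check2048 : checkRange get 2048 32 = true := by decide +kernel

theorem check2080 : checkRange get 2080 32 = true := by decide +kernel

theorem check2112 : checkRange get 2112 32 = true := by decide +kernel

theorem check2144 : checkRange get 2144 32 = true := by decide +kernel

theorem check2176 : checkRange get 2176 32 = true := by decide +kernel

theorem check2208 : checkRange get 2208 32 = true := by decide +kernel

theorem check2240 : checkRange get 2240 32 = true := by decide +kernel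

theorem check2272 : checkRange get 2272 32 = true := by decide +kernel

theorem check2304 : checkRange get 2304 32 = true := by decide +kernel

theorem check2336 : checkRange get 2336 32 = true := by decide +kernel

theorem check2368 : checkRange get 2368 32 = true := by decide +kernel

theorem check2400 : checkRange get 2400 32 = true := by decide +kernel

theorem check2432 : checkRange get 2432 32 = true := by decide +kernel

theorem check2464 : checkRange get 2464 32 = true := by decide +kernel

theorem check2496 : checkRange get 2496 32 = true := by decide +kernel

theorem check2528 : checkRange get 2528 32 = true := by decide +kernel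

theorem check2560 : checkRange get 2560 32 = true := by decide +kernel

theorem check2592 : checkRange get 2592 32 = true := by decide +kernel

theorem check2624 : checkRange get 2624 32 = true := by decide +kernel

theorem check2656 : checkRange get 2656 32 = true := by decide +kernel

theorem check2688 : checkRange get 2688 32 = true := by decide +kernel

theorem check2720 : checkRange get 2720 32 = true := by decide +kernel

theorem check2752 : checkRange get 2752 32 = true := by decide +kernel

theorem check2784 : checkRange get 2784 32 = true := by decide +kernel

theorem check2816 : checkRange get 2816 32 = true := by decide +kernel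

theorem check2848 : checkRange get 2848 32 = true := by decide +kernel

theorem check2880 : checkRange get 2880 32 = true := by decide +kernel

theorem check2912 : checkRange get 2912 32 = true := by decide +kernel

theorem check2944 : checkRange get 2944 32 = true := by decide +kernel

theorem check2976 : checkRange get 2976 32 = true := by decide +kernel

theorem check3008 : checkRange get 3008 32 = true := by decide +kernel

theorem check3040 : checkRange get 3040 32 = true := by decide +kernel

theorem blockOk2 : ∀ i, 2048 ≤ i → i < 3072 → check get i (get i) = true := by
  intro i hl hi
  rcases Nat.lt_or_ge i 2080 with h | h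
  · exact checkRange_mem check2048 i (by omega) (by omega)
  rcases Nat.lt_or_ge i 2112 with h | h
  · exact checkRange_mem check2080 i (by omega) (by omega)
  rcases Nat.lt_or_ge i 2144 with h | h
  · exact checkRange_mem check2112 i (by omega) (by omega)
  rcases Nat.lt_or_ge i 2176 with h | h
  · exact checkRange_mem check2144 i (by omega) (by omega)
  rcases Nat.lt_or_ge i 2208 with h | h
  · exact checkRange_mem check2176 i (by omega) (by omega)
  rcases Nat.lt_or_ge i 2240 with h | h
  · exact checkRange_mem check2208 i (by omega) (by omega)
  rcases Nat.lt_or_ge i 2272 with h | h
  · exact checkRange_mem check2240 i (by omega) (by omega)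
  rcases Nat.lt_or_ge i 2304 with h | h
  · exact checkRange_mem check2272 i (by omega) (by omega)
  rcases Nat.lt_or_ge i 2336 with h | h
  · exact checkRange_mem check2304 i (by omega) (by omega)
  rcases Nat.lt_or_ge i 2368 with h | h
  · exact checkRange_mem check2336 i (by omega) (by omega)
  rcases Nat.lt_or_ge i 2400 with h | h
  · exact checkRange_mem check2368 i (by omega) (by omega)
  rcases Nat.lt_or_ge i 2432 with h | h
  · exact checkRange_mem check2400 i (by omega) (by omega)
  rcases Nat.lt_or_ge i 2464 with h | h
  · exact checkRange_mem check2432 i (by omega) (by omega)
  rcases Nat.lt_or_ge i 2496 with h | h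
  · exact checkRange_mem check2464 i (by omega) (by omega)
  rcases Nat.lt_or_ge i 2528 with h | h
  · exact checkRange_mem check2496 i (by omega) (by omega)
  rcases Nat.lt_or_ge i 2560 with h | h
  · exact checkRange_mem check2528 i (by omega) (by omega)
  rcases Nat.lt_or_ge i 2592 with h | h
  · exact checkRange_mem check2560 i (by omega) (by omega)
  rcases Nat.lt_or_ge i 2624 with h | h
  · exact checkRange_mem check2592 i (by omega) (by omega)
  rcases Nat.lt_or_ge i 2656 with h | h
  · exact checkRange_mem check2624 i (by omega) (by omega)
  rcases Nat.lt_or_ge i 2688 with h | h
  · exact checkRange_mem check2656 i (by omega) (by omega)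
  rcases Nat.lt_or_ge i 2720 with h | h
  · exact checkRange_mem check2688 i (by omega) (by omega)
  rcases Nat.lt_or_ge i 2752 with h | h
  · exact checkRange_mem check2720 i (by omega) (by omega)
  rcases Nat.lt_or_ge i 2784 with h | h
  · exact checkRange_mem check2752 i (by omega) (by omega)
  rcases Nat.lt_or_ge i 2816 with h | h
  · exact checkRange_mem check2784 i (by omega) (by omega)
  rcases Nat.lt_or_ge i 2848 with h | h
  · exact checkRange_mem check2816 i (by omega) (by omega)
  rcases Nat.lt_or_ge i 2880 with h | h
  · exact checkRange_mem check2848 i (by omega) (by omega)
  rcases Nat.lt_or_ge i 2912 with h | h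
  · exact checkRange_mem check2880 i (by omega) (by omega)
  rcases Nat.lt_or_ge i 2944 with h | h
  · exact checkRange_mem check2912 i (by omega) (by omega)
  rcases Nat.lt_or_ge i 2976 with h | h
  · exact checkRange_mem check2944 i (by omega) (by omega)
  rcases Nat.lt_or_ge i 3008 with h | h
  · exact checkRange_mem check2976 i (by omega) (by omega)
  rcases Nat.lt_or_ge i 3040 with h | h
  · exact checkRange_mem check3008 i (by omega) (by omega)
  exact checkRange_mem check3040 i (by omega) (by omega)

end Vale.Agent.P062.Zero
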