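import Vale.Agent.P062.Zero.Get

/-!
P062: kernel check of a block of rows.
-/

namespace Vale.Agent.P062.Zero

open Vale.Agent.P062.Cert

theorem check3072 : checkRange get 3072 32 = true := by decide +kernel

theorem check3104 : checkRange get 3104 32 = true := by decide +kernel

theorem check3136 : checkRange get 3136 32 = true := by decide +kernel

theorem check3168 : checkRange get 3168 32 = true := by decide +kernel

theorem check3200 : checkRange get 3200 32 = true := by decide +kernel

theorem check3232 : checkRange get 3232 32 = true := by decide +kernel

theorem check3264 : checkRange get 3264 32 = true := by decide +kernel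

theorem check3296 : checkRange get 3296 32 = true := by decide +kernel

theorem check3328 : checkRange get 3328 32 = true := by decide +kernel

theorem check3360 : checkRange get 3360 32 = true := by decide +kernel

theorem check3392 : checkRange get 3392 32 = true := by decide +kernel

theorem check3424 : checkRange get 3424 32 = true := by decide +kernel

theorem check3456 : checkRange get 3456 32 = true := by decide +kernel

theorem check3488 : checkRange get 3488 32 = true := by decide +kernel

theorem check3520 : checkRange get 3520 32 = true := by decide +kernel

theorem check3552 : checkRange get 3552 32 = true := by decide +kernel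

theorem check3584 : checkRange get 3584 32 = true := by decide +kernel

theorem check3616 : checkRange get 3616 32 = true := by decide +kernel

theorem check3648 : checkRange get 3648 32 = true := by decide +kernel

theorem check3680 : checkRange get 3680 32 = true := by decide +kernel

theorem check3712 : checkRange get 3712 32 = true := by decide +kernel

theorem check3744 : checkRange get 3744 32 = true := by decide +kernel

theorem check3776 : checkRange get 3776 32 = true := by decide +kernel

theorem check3808 : checkRange get 3808 32 = true := by decide +kernel

theorem check3840 : checkRange get 3840 32 = true := by decide +kernel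

theorem check3872 : checkRange get 3872 32 = true := by decide +kernel

theorem check3904 : checkRange get 3904 32 = true := by decide +kernel

theorem check3936 : checkRange get 3936 32 = true := by decide +kernel

theorem check3968 : checkRange get 3968 32 = true := by decide +kernel

theorem check4000 : checkRange get 4000 32 = true := by decide +kernel

theorem check4032 : checkRange get 4032 32 = true := by decide +kernel

theorem check4064 : checkRange get 4064 32 = true := by decide +kernel

theorem blockOk3 : ∀ i, 3072 ≤ i → i < 4096 → check get i (get i) = true := by
  intro i hl hi
  rcases Nat.lt_or_ge i 3104 with h | h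
  · exact checkRange_mem check3072 i (by omega) (by omega)
  rcases Nat.lt_or_ge i 3136 with h | h
  · exact checkRange_mem check3104 i (by omega) (by omega)
  rcases Nat.lt_or_ge i 3168 with h | h
  · exact checkRange_mem check3136 i (by omega) (by omega)
  rcases Nat.lt_or_ge i 3200 with h | h
  · exact checkRange_mem check3168 i (by omega) (by omega)
  rcases Nat.lt_or_ge i 3232 with h | h
  · exact checkRange_mem check3200 i (by omega) (by omega)
  rcases Nat.lt_or_ge i 3264 with h | h
  · exact checkRange_mem check3232 i (by omega) (by omega)
  rcases Nat.lt_or_ge i 3296 with h | h
  · exact checkRange_mem check3264 i (by omega) (by omega)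
  rcases Nat.lt_or_ge i 3328 with h | h
  · exact checkRange_mem check3296 i (by omega) (by omega)
  rcases Nat.lt_or_ge i 3360 with h | h
  · exact checkRange_mem check3328 i (by omega) (by omega)
  rcases Nat.lt_or_ge i 3392 with h | h
  · exact checkRange_mem check3360 i (by omega) (by omega)
  rcases Nat.lt_or_ge i 3424 with h | h
  · exact checkRange_mem check3392 i (by omega) (by omega)
  rcases Nat.lt_or_ge i 3456 with h | h
  · exact checkRange_mem check3424 i (by omega) (by omega)
  rcases Nat.lt_or_ge i 3488 with h | h
  · exact checkRange_mem check3456 i (by omega) (by omega)
  rcases Nat.lt_or_ge i 3520 with h | h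
  · exact checkRange_mem check3488 i (by omega) (by omega)
  rcases Nat.lt_or_ge i 3552 with h | h
  · exact checkRange_mem check3520 i (by omega) (by omega)
  rcases Nat.lt_or_ge i 3584 with h | h
  · exact checkRange_mem check3552 i (by omega) (by omega)
  rcases Nat.lt_or_ge i 3616 with h | h
  · exact checkRange_mem check3584 i (by omega) (by omega)
  rcases Nat.lt_or_ge i 3648 with h | h
  · exact checkRange_mem check3616 i (by omega) (by omega)
  rcases Nat.lt_or_ge i 3680 with h | h
  · exact checkRange_mem check3648 i (by omega) (by omega)
  rcases Nat.lt_or_ge i 3712 with h | h
  · exact checkRange_mem check3680 i (by omega) (by omega)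
  rcases Nat.lt_or_ge i 3744 with h | h
  · exact checkRange_mem check3712 i (by omega) (by omega)
  rcases Nat.lt_or_ge i 3776 with h | h
  · exact checkRange_mem check3744 i (by omega) (by omega)
  rcases Nat.lt_or_ge i 3808 with h | h
  · exact checkRange_mem check3776 i (by omega) (by omega)
  rcases Nat.lt_or_ge i 3840 with h | h
  · exact checkRange_mem check3808 i (by omega) (by omega)
  rcases Nat.lt_or_ge i 3872 with h | h
  · exact checkRange_mem check3840 i (by omega) (by omega)
  rcases Nat.lt_or_ge i 3904 with h | h
  · exact checkRange_mem check3872 i (by omega) (by omega)
  rcases Nat.lt_or_ge i 3936 with h | h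
  · exact checkRange_mem check3904 i (by omega) (by omega)
  rcases Nat.lt_or_ge i 3968 with h | h
  · exact checkRange_mem check3936 i (by omega) (by omega)
  rcases Nat.lt_or_ge i 4000 with h | h
  · exact checkRange_mem check3968 i (by omega) (by omega)
  rcases Nat.lt_or_ge i 4032 with h | h
  · exact checkRange_mem check4000 i (by omega) (by omega)
  rcases Nat.lt_or_ge i 4064 with h | h
  · exact checkRange_mem check4032 i (by omega) (by omega)
  exact checkRange_mem check4064 i (by omega) (by omega)

end Vale.Agent.P062.Zero
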