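import Vale.Agent.P062.Zero.Get

/-!
P062: kernel check of a block of rows.
-/

namespace Vale.Agent.P062.Zero

open Vale.Agent.P062.Cert

theorem check4096 : checkRange get 4096 32 = true := by decide +kernel

theorem check4128 : checkRange get 4128 32 = true := by decide +kernel

theorem check4160 : checkRange get 4160 32 = true := by decide +kernel

theorem check4192 : checkRange get 4192 32 = true := by decide +kernel

theorem check4224 : checkRange get 4224 32 = true := by decide +kernel

theorem check4256 : checkRange get 4256 32 = true := by decide +kernel

theorem check4288 : checkRange get 4288 32 = true := by decide +kernel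

theorem check4320 : checkRange get 4320 32 = true := by decide +kernel

theorem check4352 : checkRange get 4352 32 = true := by decide +kernel

theorem check4384 : checkRange get 4384 32 = true := by decide +kernel

theorem check4416 : checkRange get 4416 32 = true := by decide +kernel

theorem check4448 : checkRange get 4448 32 = true := by decide +kernel

theorem check4480 : checkRange get 4480 32 = true := by decide +kernel

theorem check4512 : checkRange get 4512 32 = true := by decide +kernel

theorem check4544 : checkRange get 4544 32 = true := by decide +kernel

theorem check4576 : checkRange get 4576 32 = true := by decide +kernel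

theorem check4608 : checkRange get 4608 32 = true := by decide +kernel

theorem check4640 : checkRange get 4640 32 = true := by decide +kernel

theorem check4672 : checkRange get 4672 32 = true := by decide +kernel

theorem check4704 : checkRange get 4704 32 = true := by decide +kernel

theorem check4736 : checkRange get 4736 32 = true := by decide +kernel

theorem check4768 : checkRange get 4768 32 = true := by decide +kernel

theorem check4800 : checkRange get 4800 32 = true := by decide +kernel

theorem check4832 : checkRange get 4832 32 = true := by decide +kernel

theorem check4864 : checkRange get 4864 32 = true := by decide +kernel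

theorem check4896 : checkRange get 4896 32 = true := by decide +kernel

theorem check4928 : checkRange get 4928 32 = true := by decide +kernel

theorem check4960 : checkRange get 4960 32 = true := by decide +kernel

theorem check4992 : checkRange get 4992 32 = true := by decide +kernel

theorem check5024 : checkRange get 5024 32 = true := by decide +kernel

theorem check5056 : checkRange get 5056 32 = true := by decide +kernel

theorem check5088 : checkRange get 5088 32 = true := by decide +kernel

theorem blockOk4 : ∀ i, 4096 ≤ i → i < 5120 → check get i (get i) = true := by
  intro i hl hi
  rcases Nat.lt_or_ge i 4128 with h | h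
  · exact checkRange_mem check4096 i (by omega) (by omega)
  rcases Nat.lt_or_ge i 4160 with h | h
  · exact checkRange_mem check4128 i (by omega) (by omega)
  rcases Nat.lt_or_ge i 4192 with h | h
  · exact checkRange_mem check4160 i (by omega) (by omega)
  rcases Nat.lt_or_ge i 4224 with h | h
  · exact checkRange_mem check4192 i (by omega) (by omega)
  rcases Nat.lt_or_ge i 4256 with h | h
  · exact checkRange_mem check4224 i (by omega) (by omega)
  rcases Nat.lt_or_ge i 4288 with h | h
  · exact checkRange_mem check4256 i (by omega) (by omega)
  rcases Nat.lt_or_ge i 4320 with h | h
  · exact checkRange_mem check4288 i (by omega) (by omega)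
  rcases Nat.lt_or_ge i 4352 with h | h
  · exact checkRange_mem check4320 i (by omega) (by omega)
  rcases Nat.lt_or_ge i 4384 with h | h
  · exact checkRange_mem check4352 i (by omega) (by omega)
  rcases Nat.lt_or_ge i 4416 with h | h
  · exact checkRange_mem check4384 i (by omega) (by omega)
  rcases Nat.lt_or_ge i 4448 with h | h
  · exact checkRange_mem check4416 i (by omega) (by omega)
  rcases Nat.lt_or_ge i 4480 with h | h
  · exact checkRange_mem check4448 i (by omega) (by omega)
  rcases Nat.lt_or_ge i 4512 with h | h
  · exact checkRange_mem check4480 i (by omega) (by omega)
  rcases Nat.lt_or_ge i 4544 with h | h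
  · exact checkRange_mem check4512 i (by omega) (by omega)
  rcases Nat.lt_or_ge i 4576 with h | h
  · exact checkRange_mem check4544 i (by omega) (by omega)
  rcases Nat.lt_or_ge i 4608 with h | h
  · exact checkRange_mem check4576 i (by omega) (by omega)
  rcases Nat.lt_or_ge i 4640 with h | h
  · exact checkRange_mem check4608 i (by omega) (by omega)
  rcases Nat.lt_or_ge i 4672 with h | h
  · exact checkRange_mem check4640 i (by omega) (by omega)
  rcases Nat.lt_or_ge i 4704 with h | h
  · exact checkRange_mem check4672 i (by omega) (by omega)
  rcases Nat.lt_or_ge i 4736 with h | h
  · exact checkRange_mem check4704 i (by omega) (by omega)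
  rcases Nat.lt_or_ge i 4768 with h | h
  · exact checkRange_mem check4736 i (by omega) (by omega)
  rcases Nat.lt_or_ge i 4800 with h | h
  · exact checkRange_mem check4768 i (by omega) (by omega)
  rcases Nat.lt_or_ge i 4832 with h | h
  · exact checkRange_mem check4800 i (by omega) (by omega)
  rcases Nat.lt_or_ge i 4864 with h | h
  · exact checkRange_mem check4832 i (by omega) (by omega)
  rcases Nat.lt_or_ge i 4896 with h | h
  · exact checkRange_mem check4864 i (by omega) (by omega)
  rcases Nat.lt_or_ge i 4928 with h | h
  · exact checkRange_mem check4896 i (by omega) (by omega)
  rcases Nat.lt_or_ge i 4960 with h | h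
  · exact checkRange_mem check4928 i (by omega) (by omega)
  rcases Nat.lt_or_ge i 4992 with h | h
  · exact checkRange_mem check4960 i (by omega) (by omega)
  rcases Nat.lt_or_ge i 5024 with h | h
  · exact checkRange_mem check4992 i (by omega) (by omega)
  rcases Nat.lt_or_ge i 5056 with h | h
  · exact checkRange_mem check5024 i (by omega) (by omega)
  rcases Nat.lt_or_ge i 5088 with h | h
  · exact checkRange_mem check5056 i (by omega) (by omega)
  exact checkRange_mem check5088 i (by omega) (by omega)

end Vale.Agent.P062.Zero
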