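import Vale.Agent.P062.Zero.Get

/-!
P062: kernel check of a block of rows.
-/

namespace Vale.Agent.P062.Zero

open Vale.Agent.P062.Cert

theorem check5120 : checkRange get 5120 32 = true := by decide +kernel

theorem check5152 : checkRange get 5152 32 = true := by decide +kernel

theorem check5184 : checkRange get 5184 32 = true := by decide +kernel

theorem check5216 : checkRange get 5216 32 = true := by decide +kernel

theorem check5248 : checkRange get 5248 32 = true := by decide +kernel

theorem check5280 : checkRange get 5280 32 = true := by decide +kernel

theorem check5312 : checkRange get 5312 32 = true := by decide +kernel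

theorem check5344 : checkRange get 5344 32 = true := by decide +kernel

theorem check5376 : checkRange get 5376 32 = true := by decide +kernel

theorem check5408 : checkRange get 5408 32 = true := by decide +kernel

theorem check5440 : checkRange get 5440 32 = true := by decide +kernel

theorem check5472 : checkRange get 5472 32 = true := by decide +kernel

theorem check5504 : checkRange get 5504 32 = true := by decide +kernel

theorem check5536 : checkRange get 5536 32 = true := by decide +kernel

theorem check5568 : checkRange get 5568 32 = true := by decide +kernel

theorem check5600 : checkRange get 5600 32 = true := by decide +kernel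

theorem check5632 : checkRange get 5632 32 = true := by decide +kernel

theorem check5664 : checkRange get 5664 32 = true := by decide +kernel

theorem check5696 : checkRange get 5696 32 = true := by decide +kernel

theorem check5728 : checkRange get 5728 32 = true := by decide +kernel

theorem check5760 : checkRange get 5760 32 = true := by decide +kernel

theorem check5792 : checkRange get 5792 32 = true := by decide +kernel

theorem check5824 : checkRange get 5824 32 = true := by decide +kernel

theorem check5856 : checkRange get 5856 32 = true := by decide +kernel

theorem check5888 : checkRange get 5888 32 = true := by decide +kernel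

theorem check5920 : checkRange get 5920 32 = true := by decide +kernel

theorem check5952 : checkRange get 5952 32 = true := by decide +kernel

theorem check5984 : checkRange get 5984 32 = true := by decide +kernel

theorem check6016 : checkRange get 6016 32 = true := by decide +kernel

theorem check6048 : checkRange get 6048 32 = true := by decide +kernel

theorem check6080 : checkRange get 6080 32 = true := by decide +kernel

theorem check6112 : checkRange get 6112 32 = true := by decide +kernel

theorem blockOk5 : ∀ i, 5120 ≤ i → i < 6144 → check get i (get i) = true := by
  intro i hl hi
  rcases Nat.lt_or_ge i 5152 with h | h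
  · exact checkRange_mem check5120 i (by omega) (by omega)
  rcases Nat.lt_or_ge i 5184 with h | h
  · exact checkRange_mem check5152 i (by omega) (by omega)
  rcases Nat.lt_or_ge i 5216 with h | h
  · exact checkRange_mem check5184 i (by omega) (by omega)
  rcases Nat.lt_or_ge i 5248 with h | h
  · exact checkRange_mem check5216 i (by omega) (by omega)
  rcases Nat.lt_or_ge i 5280 with h | h
  · exact checkRange_mem check5248 i (by omega) (by omega)
  rcases Nat.lt_or_ge i 5312 with h | h
  · exact checkRange_mem check5280 i (by omega) (by omega)
  rcases Nat.lt_or_ge i 5344 with h | h
  · exact checkRange_mem check5312 i (by omega) (by omega)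
  rcases Nat.lt_or_ge i 5376 with h | h
  · exact checkRange_mem check5344 i (by omega) (by omega)
  rcases Nat.lt_or_ge i 5408 with h | h
  · exact checkRange_mem check5376 i (by omega) (by omega)
  rcases Nat.lt_or_ge i 5440 with h | h
  · exact checkRange_mem check5408 i (by omega) (by omega)
  rcases Nat.lt_or_ge i 5472 with h | h
  · exact checkRange_mem check5440 i (by omega) (by omega)
  rcases Nat.lt_or_ge i 5504 with h | h
  · exact checkRange_mem check5472 i (by omega) (by omega)
  rcases Nat.lt_or_ge i 5536 with h | h
  · exact checkRange_mem check5504 i (by omega) (by omega)
  rcases Nat.lt_or_ge i 5568 with h | h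
  · exact checkRange_mem check5536 i (by omega) (by omega)
  rcases Nat.lt_or_ge i 5600 with h | h
  · exact checkRange_mem check5568 i (by omega) (by omega)
  rcases Nat.lt_or_ge i 5632 with h | h
  · exact checkRange_mem check5600 i (by omega) (by omega)
  rcases Nat.lt_or_ge i 5664 with h | h
  · exact checkRange_mem check5632 i (by omega) (by omega)
  rcases Nat.lt_or_ge i 5696 with h | h
  · exact checkRange_mem check5664 i (by omega) (by omega)
  rcases Nat.lt_or_ge i 5728 with h | h
  · exact checkRange_mem check5696 i (by omega) (by omega)
  rcases Nat.lt_or_ge i 5760 with h | h
  · exact checkRange_mem check5728 i (by omega) (by omega)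
  rcases Nat.lt_or_ge i 5792 with h | h
  · exact checkRange_mem check5760 i (by omega) (by omega)
  rcases Nat.lt_or_ge i 5824 with h | h
  · exact checkRange_mem check5792 i (by omega) (by omega)
  rcases Nat.lt_or_ge i 5856 with h | h
  · exact checkRange_mem check5824 i (by omega) (by omega)
  rcases Nat.lt_or_ge i 5888 with h | h
  · exact checkRange_mem check5856 i (by omega) (by omega)
  rcases Nat.lt_or_ge i 5920 with h | h
  · exact checkRange_mem check5888 i (by omega) (by omega)
  rcases Nat.lt_or_ge i 5952 with h | h
  · exact checkRange_mem check5920 i (by omega) (by omega)
  rcases Nat.lt_or_ge i 5984 with h | h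
  · exact checkRange_mem check5952 i (by omega) (by omega)
  rcases Nat.lt_or_ge i 6016 with h | h
  · exact checkRange_mem check5984 i (by omega) (by omega)
  rcases Nat.lt_or_ge i 6048 with h | h
  · exact checkRange_mem check6016 i (by omega) (by omega)
  rcases Nat.lt_or_ge i 6080 with h | h
  · exact checkRange_mem check6048 i (by omega) (by omega)
  rcases Nat.lt_or_ge i 6112 with h | h
  · exact checkRange_mem check6080 i (by omega) (by omega)
  exact checkRange_mem check6112 i (by omega) (by omega)

end Vale.Agent.P062.Zero
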