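import Vale.Agent.P062.Zero.Get

/-!
P062: kernel check of a block of rows.
-/

namespace Vale.Agent.P062.Zero

open Vale.Agent.P062.Cert

theorem check6144 : checkRange get 6144 32 = true := by decide +kernel

theorem check6176 : checkRange get 6176 32 = true := by decide +kernel

theorem check6208 : checkRange get 6208 32 = true := by decide +kernel

theorem check6240 : checkRange get 6240 32 = true := by decide +kernel

theorem check6272 : checkRange get 6272 32 = true := by decide +kernel

theorem check6304 : checkRange get 6304 32 = true := by decide +kernel

theorem check6336 : checkRange get 6336 32 = true := by decide +kernel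

theorem check6368 : checkRange get 6368 32 = true := by decide +kernel

theorem check6400 : checkRange get 6400 32 = true := by decide +kernel

theorem check6432 : checkRange get 6432 32 = true := by decide +kernel

theorem check6464 : checkRange get 6464 32 = true := by decide +kernel

theorem check6496 : checkRange get 6496 32 = true := by decide +kernel

theorem check6528 : checkRange get 6528 32 = true := by decide +kernel

theorem check6560 : checkRange get 6560 32 = true := by decide +kernel

theorem check6592 : checkRange get 6592 32 = true := by decide +kernel

theorem check6624 : checkRange get 6624 32 = true := by decide +kernel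

theorem check6656 : checkRange get 6656 32 = true := by decide +kernel

theorem check6688 : checkRange get 6688 32 = true := by decide +kernel

theorem check6720 : checkRange get 6720 32 = true := by decide +kernel

theorem check6752 : checkRange get 6752 32 = true := by decide +kernel

theorem check6784 : checkRange get 6784 32 = true := by decide +kernel

theorem check6816 : checkRange get 6816 32 = true := by decide +kernel

theorem check6848 : checkRange get 6848 32 = true := by decide +kernel

theorem check6880 : checkRange get 6880 32 = true := by decide +kernel

theorem check6912 : checkRange get 6912 32 = true := by decide +kernel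

theorem check6944 : checkRange get 6944 32 = true := by decide +kernel

theorem check6976 : checkRange get 6976 32 = true := by decide +kernel

theorem check7008 : checkRange get 7008 32 = true := by decide +kernel

theorem check7040 : checkRange get 7040 32 = true := by decide +kernel

theorem check7072 : checkRange get 7072 32 = true := by decide +kernel

theorem check7104 : checkRange get 7104 32 = true := by decide +kernel

theorem check7136 : checkRange get 7136 32 = true := by decide +kernel

theorem blockOk6 : ∀ i, 6144 ≤ i → i < 7168 → check get i (get i) = true := by
  intro i hl hi
  rcases Nat.lt_or_ge i 6176 with h | h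
  · exact checkRange_mem check6144 i (by omega) (by omega)
  rcases Nat.lt_or_ge i 6208 with h | h
  · exact checkRange_mem check6176 i (by omega) (by omega)
  rcases Nat.lt_or_ge i 6240 with h | h
  · exact checkRange_mem check6208 i (by omega) (by omega)
  rcases Nat.lt_or_ge i 6272 with h | h
  · exact checkRange_mem check6240 i (by omega) (by omega)
  rcases Nat.lt_or_ge i 6304 with h | h
  · exact checkRange_mem check6272 i (by omega) (by omega)
  rcases Nat.lt_or_ge i 6336 with h | h
  · exact checkRange_mem check6304 i (by omega) (by omega)
  rcases Nat.lt_or_ge i 6368 with h | h
  · exact checkRange_mem check6336 i (by omega) (by omega)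
  rcases Nat.lt_or_ge i 6400 with h | h
  · exact checkRange_mem check6368 i (by omega) (by omega)
  rcases Nat.lt_or_ge i 6432 with h | h
  · exact checkRange_mem check6400 i (by omega) (by omega)
  rcases Nat.lt_or_ge i 6464 with h | h
  · exact checkRange_mem check6432 i (by omega) (by omega)
  rcases Nat.lt_or_ge i 6496 with h | h
  · exact checkRange_mem check6464 i (by omega) (by omega)
  rcases Nat.lt_or_ge i 6528 with h | h
  · exact checkRange_mem check6496 i (by omega) (by omega)
  rcases Nat.lt_or_ge i 6560 with h | h
  · exact checkRange_mem check6528 i (by omega) (by omega)
  rcases Nat.lt_or_ge i 6592 with h | h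
  · exact checkRange_mem check6560 i (by omega) (by omega)
  rcases Nat.lt_or_ge i 6624 with h | h
  · exact checkRange_mem check6592 i (by omega) (by omega)
  rcases Nat.lt_or_ge i 6656 with h | h
  · exact checkRange_mem check6624 i (by omega) (by omega)
  rcases Nat.lt_or_ge i 6688 with h | h
  · exact checkRange_mem check6656 i (by omega) (by omega)
  rcases Nat.lt_or_ge i 6720 with h | h
  · exact checkRange_mem check6688 i (by omega) (by omega)
  rcases Nat.lt_or_ge i 6752 with h | h
  · exact checkRange_mem check6720 i (by omega) (by omega)
  rcases Nat.lt_or_ge i 6784 with h | h
  · exact checkRange_mem check6752 i (by omega) (by omega)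
  rcases Nat.lt_or_ge i 6816 with h | h
  · exact checkRange_mem check6784 i (by omega) (by omega)
  rcases Nat.lt_or_ge i 6848 with h | h
  · exact checkRange_mem check6816 i (by omega) (by omega)
  rcases Nat.lt_or_ge i 6880 with h | h
  · exact checkRange_mem check6848 i (by omega) (by omega)
  rcases Nat.lt_or_ge i 6912 with h | h
  · exact checkRange_mem check6880 i (by omega) (by omega)
  rcases Nat.lt_or_ge i 6944 with h | h
  · exact checkRange_mem check6912 i (by omega) (by omega)
  rcases Nat.lt_or_ge i 6976 with h | h
  · exact checkRange_mem check6944 i (by omega) (by omega)
  rcases Nat.lt_or_ge i 7008 with h | h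
  · exact checkRange_mem check6976 i (by omega) (by omega)
  rcases Nat.lt_or_ge i 7040 with h | h
  · exact checkRange_mem check7008 i (by omega) (by omega)
  rcases Nat.lt_or_ge i 7072 with h | h
  · exact checkRange_mem check7040 i (by omega) (by omega)
  rcases Nat.lt_or_ge i 7104 with h | h
  · exact checkRange_mem check7072 i (by omega) (by omega)
  rcases Nat.lt_or_ge i 7136 with h | h
  · exact checkRange_mem check7104 i (by omega) (by omega)
  exact checkRange_mem check7136 i (by omega) (by omega)

end Vale.Agent.P062.Zero
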