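import Vale.Agent.P062.Zero.Get

/-!
P062: kernel check of a block of rows.
-/

namespace Vale.Agent.P062.Zero

open Vale.Agent.P062.Cert

theorem check7168 : checkRange get 7168 32 = true := by decide +kernel

theorem check7200 : checkRange get 7200 32 = true := by decide +kernel

theorem check7232 : checkRange get 7232 32 = true := by decide +kernel

theorem check7264 : checkRange get 7264 32 = true := by decide +kernel

theorem check7296 : checkRange get 7296 3 = true := by decide +kernel

theorem blockOk7 : ∀ i, 7168 ≤ i → i < 7299 → check get i (get i) = true := by
  intro i hl hi
  rcases Nat.lt_or_ge i 7200 with h | h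
  · exact checkRange_mem check7168 i (by omega) (by omega)
  rcases Nat.lt_or_ge i 7232 with h | h
  · exact checkRange_mem check7200 i (by omega) (by omega)
  rcases Nat.lt_or_ge i 7264 with h | h
  · exact checkRange_mem check7232 i (by omega) (by omega)
  rcases Nat.lt_or_ge i 7296 with h | h
  · exact checkRange_mem check7264 i (by omega) (by omega)
  exact checkRange_mem check7296 i (by omega) (by omega)

end Vale.Agent.P062.Zero
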