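import Vale.Agent.P062.Zero.Check0
import Vale.Agent.P062.Zero.Check1
import Vale.Agent.P062.Zero.Check2
import Vale.Agent.P062.Zero.Check3
import Vale.Agent.P062.Zero.Check4
import Vale.Agent.P062.Zero.Check5
import Vale.Agent.P062.Zero.Check6
import Vale.Agent.P062.Zero.Check7

/-!
P062: every row passes the check.
-/

namespace Vale.Agent.P062.Zero

open Vale.Agent.P062.Cert

theorem checked : ∀ i < 7299, check get i (get i) = true := by
  intro i hi
  rcases Nat.lt_or_ge i 1024 with h | h
  · exact blockOk0 i (by omega) h
  rcases Nat.lt_or_ge i 2048 with h | h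
  · exact blockOk1 i (by omega) h
  rcases Nat.lt_or_ge i 3072 with h | h
  · exact blockOk2 i (by omega) h
  rcases Nat.lt_or_ge i 4096 with h | h
  · exact blockOk3 i (by omega) h
  rcases Nat.lt_or_ge i 5120 with h | h
  · exact blockOk4 i (by omega) h
  rcases Nat.lt_or_ge i 6144 with h | h
  · exact blockOk5 i (by omega) h
  rcases Nat.lt_or_ge i 7168 with h | h
  · exact blockOk6 i (by omega) h
  exact blockOk7 i (by omega) (by omega)

/-- The number of the root row. -/
theorem root_lt : 7298 < 7299 := by decide

end Vale.Agent.P062.Zero
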