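import Vale.Agent.P062.Zero.Get

/-!
P062: kernel check of a block of rows.
-/

namespace Vale.Agent.P062.Zero

open Vale.Agent.P062.Cert

theorem check0 : checkRange get 0 32 = true := by decide +kernel

theorem check32 : checkRange get 32 32 = true := by decide +kernel

theorem check64 : checkRange get 64 32 = true := by decide +kernel

theorem check96 : checkRange get 96 32 = true := by decide +kernel

theorem check128 : checkRange get 128 32 = true := by decide +kernel

theorem check160 : checkRange get 160 32 = true := by decide +kernel

theorem check192 : checkRange get 192 32 = true := by decide +kernel

theorem check224 : checkRange get 224 32 = true := by decide +kernel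

theorem check256 : checkRange get 256 32 = true := by decide +kernel

theorem check288 : checkRange get 288 32 = true := by decide +kernel

theorem check320 : checkRange get 320 32 = true := by decide +kernel

theorem check352 : checkRange get 352 32 = true := by decide +kernel

theorem check384 : checkRange get 384 32 = true := by decide +kernel

theorem check416 : checkRange get 416 32 = true := by decide +kernel

theorem check448 : checkRange get 448 32 = true := by decide +kernel

theorem check480 : checkRange get 480 32 = true := by decide +kernel

theorem check512 : checkRange get 512 32 = true := by decide +kernel

theorem check544 : checkRange get 544 32 = true := by decide +kernel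

theorem check576 : checkRange get 576 32 = true := by decide +kernel

theorem check608 : checkRange get 608 32 = true := by decide +kernel

theorem check640 : checkRange get 640 32 = true := by decide +kernel

theorem check672 : checkRange get 672 32 = true := by decide +kernel

theorem check704 : checkRange get 704 32 = true := by decide +kernel

theorem check736 : checkRange get 736 32 = true := by decide +kernel

theorem check768 : checkRange get 768 32 = true := by decide +kernel

theorem check800 : checkRange get 800 32 = true := by decide +kernel

theorem check832 : checkRange get 832 32 = true := by decide +kernel

theorem check864 : checkRange get 864 32 = true := by decide +kernel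

theorem check896 : checkRange get 896 32 = true := by decide +kernel

theorem check928 : checkRange get 928 32 = true := by decide +kernel

theorem check960 : checkRange get 960 32 = true := by decide +kernel

theorem check992 : checkRange get 992 32 = true := by decide +kernel

theorem blockOk0 : ∀ i, 0 ≤ i → i < 1024 → check get i (get i) = true := by
  intro i hl hi
  rcases Nat.lt_or_ge i 32 with h | h
  · exact checkRange_mem check0 i (by omega) (by omega)
  rcases Nat.lt_or_ge i 64 with h | h
  · exact checkRange_mem check32 i (by omega) (by omega)
  rcases Nat.lt_or_ge i 96 with h | h
  · exact checkRange_mem check64 i (by omega) (by omega)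
  rcases Nat.lt_or_ge i 128 with h | h
  · exact checkRange_mem check96 i (by omega) (by omega)
  rcases Nat.lt_or_ge i 160 with h | h
  · exact checkRange_mem check128 i (by omega) (by omega)
  rcases Nat.lt_or_ge i 192 with h | h
  · exact checkRange_mem check160 i (by omega) (by omega)
  rcases Nat.lt_or_ge i 224 with h | h
  · exact checkRange_mem check192 i (by omega) (by omega)
  rcases Nat.lt_or_ge i 256 with h | h
  · exact checkRange_mem check224 i (by omega) (by omega)
  rcases Nat.lt_or_ge i 288 with h | h
  · exact checkRange_mem check256 i (by omega) (by omega)
  rcases Nat.lt_or_ge i 320 with h | h
  · exact checkRange_mem check288 i (by omega) (by omega)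
  rcases Nat.lt_or_ge i 352 with h | h
  · exact checkRange_mem check320 i (by omega) (by omega)
  rcases Nat.lt_or_ge i 384 with h | h
  · exact checkRange_mem check352 i (by omega) (by omega)
  rcases Nat.lt_or_ge i 416 with h | h
  · exact checkRange_mem check384 i (by omega) (by omega)
  rcases Nat.lt_or_ge i 448 with h | h
  · exact checkRange_mem check416 i (by omega) (by omega)
  rcases Nat.lt_or_ge i 480 with h | h
  · exact checkRange_mem check448 i (by omega) (by omega)
  rcases Nat.lt_or_ge i 512 with h | h
  · exact checkRange_mem check480 i (by omega) (by omega)
  rcases Nat.lt_or_ge i 544 with h | h
  · exact checkRange_mem check512 i (by omega) (by omega)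
  rcases Nat.lt_or_ge i 576 with h | h
  · exact checkRange_mem check544 i (by omega) (by omega)
  rcases Nat.lt_or_ge i 608 with h | h
  · exact checkRange_mem check576 i (by omega) (by omega)
  rcases Nat.lt_or_ge i 640 with h | h
  · exact checkRange_mem check608 i (by omega) (by omega)
  rcases Nat.lt_or_ge i 672 with h | h
  · exact checkRange_mem check640 i (by omega) (by omega)
  rcases Nat.lt_or_ge i 704 with h | h
  · exact checkRange_mem check672 i (by omega) (by omega)
  rcases Nat.lt_or_ge i 736 with h | h
  · exact checkRange_mem check704 i (by omega) (by omega)
  rcases Nat.lt_or_ge i 768 with h | h
  · exact checkRange_mem check736 i (by omega) (by omega)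
  rcases Nat.lt_or_ge i 800 with h | h
  · exact checkRange_mem check768 i (by omega) (by omega)
  rcases Nat.lt_or_ge i 832 with h | h
  · exact checkRange_mem check800 i (by omega) (by omega)
  rcases Nat.lt_or_ge i 864 with h | h
  · exact checkRange_mem check832 i (by omega) (by omega)
  rcases Nat.lt_or_ge i 896 with h | h
  · exact checkRange_mem check864 i (by omega) (by omega)
  rcases Nat.lt_or_ge i 928 with h | h
  · exact checkRange_mem check896 i (by omega) (by omega)
  rcases Nat.lt_or_ge i 960 with h | h
  · exact checkRange_mem check928 i (by omega) (by omega)
  rcases Nat.lt_or_ge i 992 with h | h
  · exact checkRange_mem check960 i (by omega) (by omega)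
  exact checkRange_mem check992 i (by omega) (by omega)

end Vale.Agent.P062.Zero
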