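import Vale.Agent.P062.Zero.Data0
import Vale.Agent.P062.Zero.Data1
import Vale.Agent.P062.Zero.Data2
import Vale.Agent.P062.Zero.Data3
import Vale.Agent.P062.Zero.Data4
import Vale.Agent.P062.Zero.Data5
import Vale.Agent.P062.Zero.Data6
import Vale.Agent.P062.Zero.Data7

/-!
P062: the table of rows.
-/

namespace Vale.Agent.P062.Zero

open Vale.Agent.P062.Cert

/-- All the rows. -/
noncomputable def table : RowTree := (RowTree.node (RowTree.node (RowTree.node block0 block1) (RowTree.node block2 block3)) (RowTree.node (RowTree.node block4 block5) (RowTree.node block6 block7)))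

/-- The rows. -/
noncomputable def get (i : ℕ) : Row := table.get 13 i

end Vale.Agent.P062.Zero
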